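import Vale.Agent.P042.H860.Fin

set_option autoImplicit false

/-!
P042: for every intersective polynomial `h` of degree at least two with positive leading
coefficient there are `c > 0` and `C` with `r_h(N) ≤ C N ^ (1 - c)` for all `N ≥ 1`.
-/

namespace Vale.Agent.Results.P042.PowerSaving

open Polynomial

/-- **Power saving for every intersective polynomial.** For every intersective `h` of degree at
least two with positive leading coefficient there are constants `c > 0` and `C > 0` such that
`r_h(N) ≤ C N ^ (1 - c)` for all `N ≥ 1`. -/
theorem result : ∀ h : ℤ[X], 2 ≤ h.natDegree → 0 < h.leadingCoeff →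
    Vale.Agent.P042.Intersective h →
    ∃ c C : ℝ, 0 < c ∧ 0 < C ∧ ∀ N : ℕ, 1 ≤ N →
      (Vale.Agent.P042.rMax h N : ℝ) ≤ C * (N : ℝ) ^ (1 - c) :=
  Vale.Agent.P042.H860.final6

end Vale.Agent.Results.P042.PowerSaving
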